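import Crest.Agent.AUC.Basic
import Crest.Prelude.Def_DaugavetL1

/-! Task T2a, key lemma (helper13).  In a space with the (rank-one) Daugavet property, every
`x + F` (`F` closed of finite codimension, `‖x‖ = 1`) contains points `u` of norm `≤ 1 + ε` with
`‖u - x‖ ≥ 2 - ε`. -/

set_option autoImplicit false
set_option linter.unusedSectionVars false

namespace Crest.Agent.AUC

open Crest.AnalysisR.L1Subspace

namespace DK

variable {V : Type*} [NormedAddCommGroup V] [NormedSpace ℝ V]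

/-- `C` contains, for every `x0`, points `u` that are almost `ℓ¹`-orthogonal to `x0`. -/
def HasD (C : Set V) : Prop :=
  ∀ x0 : V, ∀ ε : ℝ, 0 < ε → ∃ u ∈ C, ‖x0‖ + 1 - ε ≤ ‖x0 + u‖

theorem HasD.mono {C C' : Set V} (h : HasD C) (hCC' : C ⊆ C') : HasD C' := by
  intro x0 ε hε
  obtain ⟨u, hu, h1⟩ := h x0 ε hε
  exact ⟨u, hCC' hu, h1⟩

theorem HasD.scaled {C : Set V} (h : HasD C) (a : ℝ) (ha : 0 ≤ a) (x0 : V) (ε : ℝ) (hε : 0 < ε) :
    ∃ u ∈ C, ‖x0‖ + a - ε ≤ ‖x0 + a • u‖ := by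
  rcases ha.eq_or_lt with rfl | ha
  · obtain ⟨u, hu, -⟩ := h 0 1 one_pos
    exact ⟨u, hu, by simp; linarith⟩
  · obtain ⟨u, hu, h1⟩ := h (a⁻¹ • x0) (ε / a) (div_pos hε ha)
    refine ⟨u, hu, ?_⟩
    have e : x0 + a • u = a • (a⁻¹ • x0 + u) := by
      rw [smul_add, smul_smul, mul_inv_cancel₀ ha.ne', one_smul]
    rw [e, norm_smul, Real.norm_eq_abs, abs_of_pos ha]
    rw [norm_smul, Real.norm_eq_abs, abs_of_pos (inv_pos.2 ha)] at h1
    have := mul_le_mul_of_nonneg_left h1 ha.le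
    have e2 : a * (a⁻¹ * ‖x0‖ + 1 - ε / a) = ‖x0‖ + a - ε := by field_simp
    linarith

theorem HasD.combo {C1 C2 C : Set V} (h1 : HasD C1) (h2 : HasD C2) {a b : ℝ} (ha : 0 ≤ a)
    (hb : 0 ≤ b) (hab : a + b = 1) (hC : ∀ u1 ∈ C1, ∀ u2 ∈ C2, a • u1 + b • u2 ∈ C) : HasD C := by
  intro x0 ε hε
  obtain ⟨u1, hu1, e1⟩ := h1.scaled a ha x0 (ε / 2) (half_pos hε)
  obtain ⟨u2, hu2, e2⟩ := h2.scaled b hb (x0 + a • u1) (ε / 2) (half_pos hε)
  refine ⟨_, hC u1 hu1 u2 hu2, ?_⟩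
  rw [← add_assoc]
  linarith

theorem slice_aux (hD : HasDaugavetProperty V) (φ : V →L[ℝ] ℝ) (c : ℝ) (u0 : V) (hu0 : ‖u0‖ ≤ 1)
    (hc : c < φ u0) (x0 : V) (hx0 : x0 ≠ 0) (ε : ℝ) (hε : 0 < ε) :
    ∃ u : V, ‖u‖ ≤ 1 ∧ c < φ u ∧ ‖x0‖ + 1 - ε ≤ ‖x0 + u‖ := by
  set r := ‖x0‖ with hr
  have hr0 : 0 < r := norm_pos_iff.2 hx0
  by_cases hφ : φ = 0
  · subst hφ
    refine ⟨r⁻¹ • x0, ?_, by simpa using hc, ?_⟩
    · rw [norm_smul, Real.norm_eq_abs, abs_of_pos (inv_pos.2 hr0), ← hr, inv_mul_cancel₀ hr0.ne']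
    · have e : x0 + r⁻¹ • x0 = (1 + r⁻¹) • x0 := by rw [add_smul, one_smul]
      rw [e, norm_smul, Real.norm_eq_abs, abs_of_pos (by positivity), ← hr]
      have : (1 + r⁻¹) * r = r + 1 := by field_simp
      linarith
  · set m := ‖φ‖ with hm
    have hm0 : 0 < m := norm_pos_iff.2 hφ
    have hcm : c < m := by
      calc c < φ u0 := hc
        _ ≤ ‖φ u0‖ := le_abs_self _
        _ ≤ m * ‖u0‖ := φ.le_opNorm _
        _ ≤ m * 1 := by gcongr
        _ = m := mul_one _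
    set η := min (ε / 2) (r * (m - c) / m) with hη
    have hη0 : 0 < η := lt_min (half_pos hε) (by have : 0 < m - c := by linarith
                                                 positivity)
    have hη1 : η ≤ ε / 2 := min_le_left _ _
    have hη2 : η ≤ r * (m - c) / m := min_le_right _ _
    have hnorm : ‖ContinuousLinearMap.id ℝ V + (m⁻¹ • φ).smulRight x0‖ = 1 + r := by
      rw [hD, ContinuousLinearMap.norm_smulRight_apply, norm_smul, Real.norm_eq_abs,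
        abs_of_pos (inv_pos.2 hm0), ← hm, inv_mul_cancel₀ hm0.ne', one_mul]
    obtain ⟨w, hw1, hw⟩ := ContinuousLinearMap.exists_lt_apply_of_lt_opNorm
      (ContinuousLinearMap.id ℝ V + (m⁻¹ • φ).smulRight x0) (r := 1 + r - η)
      (by rw [hnorm]; linarith)
    have hw' : 1 + r - η < ‖w + (m⁻¹ * φ w) • x0‖ := by
      simpa using hw
    have main : ∀ w : V, ‖w‖ < 1 → 1 + r - η < ‖w + (m⁻¹ * φ w) • x0‖ → 0 ≤ φ w →
        ∃ u : V, ‖u‖ ≤ 1 ∧ c < φ u ∧ r + 1 - ε ≤ ‖x0 + u‖ := by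
      intro w hw1 hw hpos
      set θ := m⁻¹ * φ w with hθ
      have hθ0 : 0 ≤ θ := by positivity
      have hθ1 : θ ≤ 1 := by
        have : φ w ≤ m * 1 := by
          calc φ w ≤ ‖φ w‖ := le_abs_self _
            _ ≤ m * ‖w‖ := φ.le_opNorm _
            _ ≤ m * 1 := by gcongr
        rw [hθ, inv_mul_le_iff₀ hm0]; linarith
      have h1 : ‖w + θ • x0‖ ≤ 1 + θ * r := by
        calc ‖w + θ • x0‖ ≤ ‖w‖ + ‖θ • x0‖ := norm_add_le _ _
          _ = ‖w‖ + θ * r := by rw [norm_smul, Real.norm_eq_abs, abs_of_nonneg hθ0]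
          _ ≤ 1 + θ * r := by linarith
      have h2 : (1 - θ) * r < η := by nlinarith
      refine ⟨w, hw1.le, ?_, ?_⟩
      · have h3 : φ w = m * θ := by rw [hθ]; field_simp
        have h4 : (1 - θ) * r < r * (m - c) / m := lt_of_lt_of_le h2 hη2
        have h5 : (1 - θ) < (m - c) / m := by
          have : (1 - θ) * r < ((m - c) / m) * r := by
            calc (1 - θ) * r < r * (m - c) / m := h4
              _ = ((m - c) / m) * r := by ring
          exact lt_of_mul_lt_mul_right this hr0.le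
        have h6 : m * (1 - θ) < m - c := by
          calc m * (1 - θ) < m * ((m - c) / m) := by gcongr
            _ = m - c := by field_simp
        rw [h3]; linarith
      · have e : x0 + w = (w + θ • x0) + (1 - θ) • x0 := by
          rw [sub_smul, one_smul]; abel
        have h7 : ‖w + θ • x0‖ ≤ ‖x0 + w‖ + (1 - θ) * r := by
          have : w + θ • x0 = (x0 + w) - (1 - θ) • x0 := by rw [e]; abel
          calc ‖w + θ • x0‖ = ‖(x0 + w) - (1 - θ) • x0‖ := by rw [← this]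
            _ ≤ ‖x0 + w‖ + ‖(1 - θ) • x0‖ := norm_sub_le _ _
            _ = ‖x0 + w‖ + (1 - θ) * r := by
                rw [norm_smul, Real.norm_eq_abs, abs_of_nonneg (by linarith)]
        linarith
    rcases le_total 0 (φ w) with hpos | hneg
    · exact main w hw1 hw' hpos
    · apply main (-w) (by rwa [norm_neg]) _ (by rw [map_neg]; linarith)
      have e : -w + (m⁻¹ * φ (-w)) • x0 = -(w + (m⁻¹ * φ w) • x0) := by
        rw [map_neg, mul_neg, neg_smul, neg_add]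
      rw [e, norm_neg]
      exact hw'

theorem hasD_slice (hD : HasDaugavetProperty V) (hne : ∃ w : V, w ≠ 0) (φ : V →L[ℝ] ℝ) (c : ℝ)
    (u0 : V) (hu0 : ‖u0‖ ≤ 1) (hc : c < φ u0) : HasD {u : V | ‖u‖ ≤ 1 ∧ c < φ u} := by
  intro x0 ε hε
  by_cases hx0 : x0 = 0
  · subst hx0
    obtain ⟨w, hw⟩ := hne
    have hw0 : 0 < ‖w‖ := norm_pos_iff.2 hw
    set x1 : V := ((ε / 2) * ‖w‖⁻¹) • w with hx1
    have hx1n : ‖x1‖ = ε / 2 := by
      rw [hx1, norm_smul, Real.norm_eq_abs, abs_of_pos (by positivity)]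
      field_simp
    have hx1ne : x1 ≠ 0 := by
      rw [← norm_pos_iff, hx1n]; positivity
    obtain ⟨u, hu1, hu2, hu3⟩ := slice_aux hD φ c u0 hu0 hc x1 hx1ne (ε / 2) (half_pos hε)
    refine ⟨u, ⟨hu1, hu2⟩, ?_⟩
    have : ‖x1 + u‖ ≤ ‖x1‖ + ‖u‖ := norm_add_le _ _
    rw [zero_add, norm_zero]
    linarith
  · obtain ⟨u, hu1, hu2, hu3⟩ := slice_aux hD φ c u0 hu0 hc x0 hx0 ε hε
    exact ⟨u, ⟨hu1, hu2⟩, hu3⟩

section Hilbert

variable {H : Type*} [NormedAddCommGroup H] [InnerProductSpace ℝ H] [CompleteSpace H]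

open scoped RealInnerProductSpace

/-- points of `H` all of whose `r`-neighbourhoods pull back to `HasD` subsets of the ball. -/
def Zset (T : V →L[ℝ] H) (r : ℝ) : Set H :=
  {z | HasD {u : V | ‖u‖ ≤ 1 ∧ ‖T u - z‖ < r}}

theorem convex_Zset (T : V →L[ℝ] H) (r : ℝ) : Convex ℝ (Zset T r) := by
  intro z1 h1 z2 h2 a b ha hb hab
  refine HasD.combo h1 h2 ha hb hab ?_
  rintro u1 ⟨hu1, hz1⟩ u2 ⟨hu2, hz2⟩
  constructor
  · calc ‖a • u1 + b • u2‖ ≤ ‖a • u1‖ + ‖b • u2‖ := norm_add_le _ _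
      _ = a * ‖u1‖ + b * ‖u2‖ := by
          rw [norm_smul, norm_smul, Real.norm_eq_abs, Real.norm_eq_abs, abs_of_nonneg ha,
            abs_of_nonneg hb]
      _ ≤ a * 1 + b * 1 := by gcongr
      _ = 1 := by linarith
  · have e : T (a • u1 + b • u2) - (a • z1 + b • z2) = a • (T u1 - z1) + b • (T u2 - z2) := by
      rw [map_add, map_smul, map_smul, smul_sub, smul_sub]; abel
    rw [e]
    have h3 : ‖a • (T u1 - z1) + b • (T u2 - z2)‖ ≤ a * ‖T u1 - z1‖ + b * ‖T u2 - z2‖ := by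
      calc _ ≤ ‖a • (T u1 - z1)‖ + ‖b • (T u2 - z2)‖ := norm_add_le _ _
        _ = _ := by
          rw [norm_smul, norm_smul, Real.norm_eq_abs, Real.norm_eq_abs, abs_of_nonneg ha,
            abs_of_nonneg hb]
    refine lt_of_le_of_lt h3 ?_
    rcases ha.eq_or_lt with rfl | ha'
    · have : b = 1 := by linarith
      subst this
      simpa using hz2
    · have h4 : a * ‖T u1 - z1‖ < a * r := by gcongr
      have h5 : b * ‖T u2 - z2‖ ≤ b * r := by gcongr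
      calc _ < a * r + b * r := by linarith
        _ = r := by rw [← add_mul, hab, one_mul]

theorem mem_closure_Zset (hD : HasDaugavetProperty V) (hne : ∃ w : V, w ≠ 0) (T : V →L[ℝ] H)
    (r : ℝ) (hr : 0 < r) (u0 : V) (hu0 : ‖u0‖ ≤ 1) : T u0 ∈ closure (Zset T r) := by
  by_contra hcon
  obtain ⟨f, c, hf1, hf2⟩ := geometric_hahn_banach_closed_point
    (convex_Zset T r).closure isClosed_closure hcon
  set n : H := (InnerProductSpace.toDual ℝ H).symm f with hn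
  have hfn : ∀ z : H, f z = ⟪n, z⟫ := fun z => (InnerProductSpace.toDual_symm_apply).symm
  set δ : ℝ := r ^ 2 / 8 with hδ
  have hδ0 : 0 < δ := by positivity
  have hgap : 0 < f (T u0) - c := by linarith
  set t : ℝ := (‖T‖ ^ 2 + δ) / (2 * (f (T u0) - c)) with ht
  have ht0 : 0 < t := by positivity
  -- the function to be maximised
  set g : V → ℝ := fun u => ‖T u + t • n‖ ^ 2 with hg
  set A : Set ℝ := g '' {u : V | ‖u‖ ≤ 1} with hA
  have hAne : A.Nonempty := ⟨g u0, u0, hu0, rfl⟩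
  have hAbdd : BddAbove A := by
    refine ⟨(‖T‖ + ‖t • n‖) ^ 2, ?_⟩
    rintro _ ⟨u, hu, rfl⟩
    have hu' : ‖u‖ ≤ 1 := hu
    have : ‖T u + t • n‖ ≤ ‖T‖ + ‖t • n‖ := by
      calc ‖T u + t • n‖ ≤ ‖T u‖ + ‖t • n‖ := norm_add_le _ _
        _ ≤ ‖T‖ * ‖u‖ + ‖t • n‖ := by gcongr; exact T.le_opNorm u
        _ ≤ ‖T‖ * 1 + ‖t • n‖ := by gcongr
        _ = _ := by rw [mul_one]
    simp only [hg]
    gcongr
  set R2 := sSup A with hR2
  have hle : ∀ u : V, ‖u‖ ≤ 1 → g u ≤ R2 := fun u hu => le_csSup hAbdd ⟨u, hu, rfl⟩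
  obtain ⟨_, ⟨ue, hue, rfl⟩, hue2⟩ := exists_lt_of_lt_csSup hAne (show R2 - δ < sSup A by linarith)
  have hue' : ‖ue‖ ≤ 1 := hue
  set e : H := T ue with he
  -- the slice
  set ψ : V →L[ℝ] ℝ := (innerSL ℝ (e + t • n)).comp T with hψ
  have hψa : ∀ u, ψ u = ⟪e + t • n, T u⟫ := fun u => by
    rw [hψ, ContinuousLinearMap.comp_apply, innerSL_apply_apply]
  set c' : ℝ := R2 - 2 * δ - ⟪e + t • n, t • n⟫ with hc'
  have hge : g ue = ⟪e + t • n, e + t • n⟫ := by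
    simp only [hg]; rw [real_inner_self_eq_norm_sq]
  have hslice := hasD_slice hD hne ψ c' ue hue' (by
    rw [hψa, hc']
    have : ⟪e + t • n, e + t • n⟫ = ⟪e + t • n, e⟫ + ⟪e + t • n, t • n⟫ := inner_add_right _ _ _
    rw [← he]
    linarith)
  have heZ : e ∈ Zset T r := by
    refine hslice.mono ?_
    rintro u ⟨hu1, hu2⟩
    refine ⟨hu1, ?_⟩
    rw [hψa, hc'] at hu2
    have h1 : ⟪e + t • n, T u + t • n⟫ = ⟪e + t • n, T u⟫ + ⟪e + t • n, t • n⟫ :=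
      inner_add_right _ _ _
    have h2 : R2 - 2 * δ < ⟪e + t • n, T u + t • n⟫ := by linarith
    have h3 : ‖T u - e‖ ^ 2 = g u - 2 * ⟪e + t • n, T u + t • n⟫ + g ue := by
      have : T u - e = (T u + t • n) - (e + t • n) := by abel
      rw [this, norm_sub_sq_real, real_inner_comm]
    have h4 : ‖T u - e‖ ^ 2 < r ^ 2 := by
      have := hle u hu1
      have := hle ue hue'
      have : 4 * δ < r ^ 2 := by rw [hδ]; nlinarith
      linarith
    exact lt_of_pow_lt_pow_left₀ 2 hr.le h4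
  have hfe : f e < c := hf1 e (subset_closure heZ)
  -- but `e` almost maximises `f`
  have hexp : ∀ z : H, ‖z + t • n‖ ^ 2 = ‖z‖ ^ 2 + 2 * t * f z + ‖t • n‖ ^ 2 := by
    intro z
    rw [norm_add_sq_real, inner_smul_right, real_inner_comm, ← hfn]
    ring
  have h1 : g u0 - δ < g ue := by linarith [hle u0 hu0]
  simp only [hg] at h1
  rw [hexp, hexp] at h1
  have h2 : ‖e‖ ≤ ‖T‖ := by
    calc ‖e‖ ≤ ‖T‖ * ‖ue‖ := T.le_opNorm _
      _ ≤ ‖T‖ * 1 := by gcongr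
      _ = ‖T‖ := mul_one _
  have h3 : ‖e‖ ^ 2 ≤ ‖T‖ ^ 2 := by gcongr
  have h4 : 2 * t * (f (T u0) - f e) < ‖T‖ ^ 2 + δ := by
    have := sq_nonneg ‖T u0‖
    rw [← he] at h1
    nlinarith
  have h5 : 2 * t * (f (T u0) - c) = ‖T‖ ^ 2 + δ := by
    rw [ht]; field_simp
  have h6 : 2 * t * (f (T u0) - c) ≤ 2 * t * (f (T u0) - f e) := by
    gcongr
  linarith

theorem hasD_nbhd (hD : HasDaugavetProperty V) (hne : ∃ w : V, w ≠ 0) (T : V →L[ℝ] H)
    (r : ℝ) (hr : 0 < r) (u0 : V) (hu0 : ‖u0‖ ≤ 1) :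
    HasD {u : V | ‖u‖ ≤ 1 ∧ ‖T u - T u0‖ < r} := by
  have h := mem_closure_Zset hD hne T (r / 2) (half_pos hr) u0 hu0
  rw [Metric.mem_closure_iff] at h
  obtain ⟨z, hz, hdist⟩ := h (r / 2) (half_pos hr)
  refine HasD.mono hz ?_
  rintro u ⟨hu1, hu2⟩
  refine ⟨hu1, ?_⟩
  rw [dist_eq_norm] at hdist
  calc ‖T u - T u0‖ = ‖(T u - z) - (T u0 - z)‖ := by congr 1; abel
    _ ≤ ‖T u - z‖ + ‖T u0 - z‖ := norm_sub_le _ _
    _ < r / 2 + r / 2 := by linarith
    _ = r := by ring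

end Hilbert

end DK

variable {V : Type*} [NormedAddCommGroup V] [NormedSpace ℝ V]

/-- KEY LEMMA (same statement as `daugavet_cofinite`). -/
theorem daugavet_cofinite_key (hD : HasDaugavetProperty V) (x : V) (hx : ‖x‖ = 1)
    (F : Set V) (hF : IsCofSet F) (ε : ℝ) (hε : 0 < ε) :
    ∃ u : V, ‖u‖ ≤ 1 + ε ∧ u - x ∈ F ∧ 2 - ε ≤ ‖u - x‖ := by
  obtain ⟨S, rfl, hSc, hSf⟩ := hF
  have : IsClosed (S : Set V) := hSc
  have hne : ∃ w : V, w ≠ 0 := ⟨x, by rw [← norm_pos_iff, hx]; exact one_pos⟩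
  let eq : (V ⧸ S) ≃L[ℝ] EuclideanSpace ℝ (Fin (Module.finrank ℝ (V ⧸ S))) := toEuclidean
  let T : V →L[ℝ] EuclideanSpace ℝ (Fin (Module.finrank ℝ (V ⧸ S))) :=
    (eq : (V ⧸ S) →L[ℝ] EuclideanSpace ℝ (Fin (Module.finrank ℝ (V ⧸ S)))).comp S.mkQL
  set C : ℝ := ‖(eq.symm : EuclideanSpace ℝ (Fin (Module.finrank ℝ (V ⧸ S))) →L[ℝ] (V ⧸ S))‖
    with hC
  have hC0 : 0 ≤ C := ContinuousLinearMap.opNorm_nonneg _
  set r : ℝ := ε / (4 * (C + 1)) with hr
  have hr0 : 0 < r := by positivity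
  obtain ⟨u, ⟨hu1, hu2⟩, hu3⟩ := DK.hasD_nbhd hD hne T r hr0 x hx.le (-x) (ε / 2) (half_pos hε)
  rw [norm_neg, hx] at hu3
  have hq : ‖S.mkQL (x - u)‖ ≤ ε / 4 := by
    have e1 : S.mkQL (x - u) = eq.symm (T x - T u) := by
      simp only [T, ContinuousLinearMap.comp_apply, ContinuousLinearEquiv.coe_coe, ← map_sub,
        ContinuousLinearEquiv.symm_apply_apply]
    rw [e1]
    calc ‖eq.symm (T x - T u)‖ ≤ C * ‖T x - T u‖ :=
          (eq.symm : EuclideanSpace ℝ (Fin (Module.finrank ℝ (V ⧸ S))) →L[ℝ] (V ⧸ S)).le_opNorm _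
      _ ≤ C * r := by
          gcongr
          rw [norm_sub_rev]; exact hu2.le
      _ ≤ (C + 1) * r := by gcongr; linarith
      _ = ε / 4 := by rw [hr]; field_simp
  obtain ⟨m, hm, hm'⟩ := Submodule.Quotient.norm_mk_lt (S.mkQL (x - u))
    (show 0 < ε / 4 by positivity)
  have hmn : ‖m‖ < ε / 2 := by linarith
  refine ⟨u + m, ?_, ?_, ?_⟩
  · calc ‖u + m‖ ≤ ‖u‖ + ‖m‖ := norm_add_le _ _
      _ ≤ 1 + ε := by linarith
  · have h0 : S.mkQ (u + m - x) = 0 := by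
      have h3 : S.mkQ m = S.mkQ (x - u) := hm
      have e2 : u + m - x = m - (x - u) := by abel
      rw [e2, map_sub, h3, sub_self]
    exact (Submodule.Quotient.mk_eq_zero S).mp h0
  · have e3 : -x + u = (u + m - x) - m := by abel
    have : ‖-x + u‖ ≤ ‖u + m - x‖ + ‖m‖ := by
      rw [e3]; exact norm_sub_le _ _
    linarith

end Crest.Agent.AUC
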